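import Vale.Agent.P368M.QuasiFinal

open P368

theorem Vale.Agent.Results.P368.MooreSize.result :
    (∀ d : ℕ, ∃ C : ℝ, 0 < C ∧
      ∀ (n : ℕ) (A : Type) [Fintype A] [DecidableEq A] (α : Ket A), nsq α = 1 →
      ∀ (L : List (Layer (Fin n ⊕ A))) (F : Fin n ⊕ A → Matrix Bool Bool ℂ) (o : Fin n ⊕ A),
        L.length ≤ d → (∀ l ∈ L, l.Valid) → (∀ v, F v ∈ Matrix.unitaryGroup Bool ℂ) →
        |corr L F o α| ≤ Real.exp (2 - n / Real.exp (C *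
          Real.log (2 * ((n : ℝ) + Fintype.card A) + 2) ^ (1 - (1 / 2 : ℝ) ^ (d + 1))))) ∧
    (∀ (d : ℕ) (ε : ℝ), 0 < ε → ∃ C : ℝ, 0 < C ∧ ∃ n₀ : ℕ, ∀ n : ℕ, n₀ ≤ n →
      ∀ (A : Type) [Fintype A] [DecidableEq A] (α : Ket A), nsq α = 1 →
      ∀ (L : List (Layer (Fin n ⊕ A))) (F : Fin n ⊕ A → Matrix Bool Bool ℂ) (o : Fin n ⊕ A),
        L.length ≤ d → (∀ l ∈ L, l.Valid) → (∀ v, F v ∈ Matrix.unitaryGroup Bool ℂ) →
        ε ≤ |corr L F o α| →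
        Real.exp ((Real.log n / C) ^ (1 + 1 / ((2 : ℝ) ^ (d + 1) - 1))) ≤
          (n : ℝ) + Fintype.card A) ∧
    (∀ (d k : ℕ) (δ : ℝ), 0 < δ → ∃ C : ℝ, 0 < C ∧
      ∀ (n : ℕ) (A : Type) [Fintype A] [DecidableEq A], 1 ≤ n → Fintype.card A ≤ n ^ k →
      ∀ (α : Ket A), nsq α = 1 →
      ∀ (L : List (Layer (Fin n ⊕ A))) (F : Fin n ⊕ A → Matrix Bool Bool ℂ) (o : Fin n ⊕ A),
        L.length ≤ d → (∀ l ∈ L, l.Valid) → (∀ v, F v ∈ Matrix.unitaryGroup Bool ℂ) →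
        |corr L F o α| ≤ Real.exp (2 - (n : ℝ) ^ (1 - δ) / C)) ∧
    (∀ (d k : ℕ) (ε : ℝ), 0 < ε → ∃ n₀ : ℕ, ∀ n : ℕ, n₀ ≤ n →
      ∀ (A : Type) [Fintype A] [DecidableEq A], Fintype.card A ≤ n ^ k →
      ∀ (L : List (Layer (Fin n ⊕ A))) (F : Fin n ⊕ A → Matrix Bool Bool ℂ) (o : Fin n ⊕ A),
        L.length ≤ d → (∀ l ∈ L, l.Valid) → (∀ v, F v ∈ Matrix.unitaryGroup Bool ℂ) →
        ∃ x : Fin n → Bool, prob L F o (zeros A) x (par x) < 1 / 2 + ε) := by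
  refine ⟨?_, ?_, ?_, ?_⟩
  · intro d
    obtain ⟨C, hC, h⟩ := P368M.main_quasi d
    refine ⟨C, hC, ?_⟩
    intro n A _ _ α hα L F o hL hv hF
    exact h n A α hα L F o hL hv hF
  · intro d ε hε
    obtain ⟨C, hC, n₀, h⟩ := P368M.size_lower d ε hε
    refine ⟨C, hC, n₀, ?_⟩
    intro n hn A _ _ α hα L F o hL hv hF hc
    exact h n hn A α hα L F o hL hv hF hc
  · intro d k δ hδ
    obtain ⟨C, hC, h⟩ := P368M.poly_size d k δ hδ
    refine ⟨C, hC, ?_⟩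
    intro n A _ _ hn hA α hα L F o hL hv hF
    exact h n A hn hA α hα L F o hL hv hF
  · intro d k ε hε
    obtain ⟨n₀, h⟩ := P368M.no_family d k ε hε
    refine ⟨n₀, ?_⟩
    intro n hn A _ _ hA L F o hL hv hF
    have h1 : nsq (zeros A) = 1 := by
      unfold nsq zeros
      rw [Finset.sum_eq_single (fun _ : A => false)]
      · simp
      · intro z _ hz
        rw [if_neg hz]
        simp
      · intro hcon
        exact absurd (Finset.mem_univ _) hcon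
    exact h n hn A hA (zeros A) h1 L F o hL hv hF
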