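import Vale.Agent.P368.Upper
import Vale.Agent.P368.Three

open P368

theorem Vale.Agent.Results.P368.ThresholdFour.result :
    (∀ ε : ℝ, 0 < ε → ∃ n₀ : ℕ, ∀ n : ℕ, n₀ ≤ n → ∀ (A : Type) [Fintype A] [DecidableEq A]
      (L : List (Layer (Fin n ⊕ A))) (F : Fin n ⊕ A → Matrix Bool Bool ℂ) (o : Fin n ⊕ A),
      L.length ≤ 3 → (∀ l ∈ L, l.Valid) → (∀ v, F v ∈ Matrix.unitaryGroup Bool ℂ) →
      |corr L F o (zeros A)| ≤ ε) ∧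
    (∃ C : ℝ, 0 < C ∧ ∀ n : ℕ, 2 ≤ n → ∀ δ : ℝ, 0 < δ → δ ≤ 1 →
      ∃ m : ℕ, (m : ℝ) ≤ (C * n / δ) ^ n ∧
      ∃ (L : List (Layer (Fin n ⊕ (Fin m × Fin n ⊕ Unit))))
        (F : (Fin n ⊕ (Fin m × Fin n ⊕ Unit)) → Matrix Bool Bool ℂ),
        L.length = 4 ∧ (∀ l ∈ L, l.Valid) ∧ (∀ v, F v ∈ Matrix.unitaryGroup Bool ℂ) ∧
        ∀ x : Fin n → Bool, 1 - δ ≤ prob L F (Sum.inr (Sum.inr ())) (zeros _) x (par x)) := by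
  constructor
  · intro ε hε
    obtain ⟨n₀, hn₀⟩ := D3.three_layers ε hε
    refine ⟨n₀, fun n hn A _ _ L F o hL hv hF => ?_⟩
    exact hn₀ n hn A L hL hv F hF o
  · obtain ⟨C, hC, h⟩ := depth_four
    refine ⟨C, hC, fun n hn δ hδ hδ1 => ?_⟩
    obtain ⟨m, hm, L, F, hL⟩ := h n hn δ hδ hδ1
    exact ⟨m, hm, L, F, hL⟩
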