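import Vale.Agent.P368.Upper7
import Vale.Agent.P368.Three
import Vale.Agent.P368.Two

open P368

theorem Vale.Agent.Results.P368.Thresholds.result :
    (∀ ε : ℝ, 0 < ε → ∃ n₀ : ℕ, ∀ n : ℕ, n₀ ≤ n → ∀ (A : Type) [Fintype A] [DecidableEq A]
      (L : List (Layer (Fin n ⊕ A))) (F : Fin n ⊕ A → Matrix Bool Bool ℂ) (o : Fin n ⊕ A),
      L.length ≤ 3 → (∀ l ∈ L, l.Valid) → (∀ v, F v ∈ Matrix.unitaryGroup Bool ℂ) →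
      |corr L F o (zeros A)| ≤ ε) ∧
    (∃ C : ℝ, 0 < C ∧ ∀ n : ℕ, 2 ≤ n → ∀ δ : ℝ, 0 < δ → δ ≤ 1 →
      ∃ m : ℕ, (m : ℝ) ≤ (C * n / δ) ^ n ∧
      ∃ (L : List (Layer (Fin n ⊕ (Fin m × Fin n ⊕ Unit))))
        (F : (Fin n ⊕ (Fin m × Fin n ⊕ Unit)) → Matrix Bool Bool ℂ),
        L.length = 4 ∧ (∀ l ∈ L, l.Valid) ∧ (∀ v, F v ∈ Matrix.unitaryGroup Bool ℂ) ∧
        ∀ x : Fin n → Bool, 1 - δ ≤ prob L F (Sum.inr (Sum.inr ())) (zeros _) x (par x)) ∧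
    (∀ b c : ℕ, ∃ C : ℝ, 0 < C ∧ ∀ (n : ℕ) (A : Type) [Fintype A] [DecidableEq A] (α : Ket A),
      nsq α = 1 → ∀ (D : List (Layer (Fin n ⊕ A))) (L₁ L₂ : Layer (Fin n ⊕ A))
      (F : Fin n ⊕ A → Matrix Bool Bool ℂ) (o : Fin n ⊕ A),
      D.length ≤ c → (∀ l ∈ D, l.Valid ∧ ∀ v, (l.ctrl v).card ≤ b) → L₁.Valid → L₂.Valid →
      (∀ v, F v ∈ Matrix.unitaryGroup Bool ℂ) →
      |corr (D ++ [L₁, L₂]) F o α| ≤ C * Real.exp (-(n : ℝ) / C)) ∧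
    (∃ C : ℝ, 0 < C ∧ ∀ n : ℕ, 2 ≤ n → ∀ δ : ℝ, 0 < δ → δ ≤ 1 →
      ∃ m : ℕ, (m : ℝ) ≤ (C * n / δ) ^ n ∧
      ∃ (α : Ket (Fin m × Fin n ⊕ Unit)) (L : List (Layer (Fin n ⊕ (Fin m × Fin n ⊕ Unit))))
        (F : (Fin n ⊕ (Fin m × Fin n ⊕ Unit)) → Matrix Bool Bool ℂ),
        nsq α = 1 ∧ L.length = 3 ∧ (∀ l ∈ L, l.Valid) ∧
        (∀ v, F v ∈ Matrix.unitaryGroup Bool ℂ) ∧
        ∀ x : Fin n → Bool, 1 - δ ≤ prob L F (Sum.inr (Sum.inr ())) α x (par x)) := by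
  refine ⟨?_, ?_, ?_, ?_⟩
  · intro ε hε
    obtain ⟨n₀, hn₀⟩ := D3.three_layers ε hε
    refine ⟨n₀, fun n hn A _ _ L F o hL hv hF => ?_⟩
    exact hn₀ n hn A L hL hv F hF o
  · obtain ⟨C, hC, h⟩ := depth_four
    refine ⟨C, hC, fun n hn δ hδ hδ1 => ?_⟩
    obtain ⟨m, hm, L, F, hL⟩ := h n hn δ hδ hδ1
    exact ⟨m, hm, L, F, hL⟩
  · intro b c
    obtain ⟨C, hC, h⟩ := D3.two_top_layers b c
    refine ⟨C, hC, ?_⟩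
    intro n A _ _ α hα D L₁ L₂ F o hlen hD h₁ h₂ hF
    exact h n A α hα D L₁ L₂ F o hlen hD h₁ h₂ hF
  · obtain ⟨C, hC, h⟩ := depth_three_state
    refine ⟨C, hC, fun n hn δ hδ hδ1 => ?_⟩
    obtain ⟨m, hm, α, L, F, hL⟩ := h n hn δ hδ hδ1
    exact ⟨m, hm, α, L, F, hL⟩
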